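import Mathlib
import Vale.Agent.Lib.P226.Cells

namespace Vale.Agent.Results.P226.SmallCells

open MeasureTheory ProbabilityTheory

/-- Propeller inequality for partitions into small cells.
Let `γ` be the standard Gaussian measure on `ℝ^d` and let `A_1, …, A_k` be pairwise disjoint
measurable subsets of `ℝ^d` (for instance the cells of a measurable partition), with Gaussian
first moments `z(A_i) = ∫_{A_i} x dγ(x)`.  Then
* `‖z(A_i)‖² ≤ 2 γ(A_i)² log (1 / γ(A_i))` for every cell, and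
* if every cell has `γ(A_i) ≤ 1/16`, then `∑ ‖z(A_i)‖² ≤ 9/(8π)`. -/
theorem result (d k : ℕ) (A : Fin k → Set (EuclideanSpace ℝ (Fin d)))
    (hA : ∀ i, MeasurableSet (A i))
    (hd : Pairwise (fun i j => Disjoint (A i) (A j))) :
    (∀ i, ‖∫ x in A i, x ∂(stdGaussian (EuclideanSpace ℝ (Fin d)))‖ ^ 2 ≤
      2 * ((stdGaussian (EuclideanSpace ℝ (Fin d))) (A i)).toReal ^ 2 *
        Real.log (1 / ((stdGaussian (EuclideanSpace ℝ (Fin d))) (A i)).toReal)) ∧
    ((∀ i, ((stdGaussian (EuclideanSpace ℝ (Fin d))) (A i)).toReal ≤ 1 / 16) →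
      ∑ i, ‖∫ x in A i, x ∂(stdGaussian (EuclideanSpace ℝ (Fin d)))‖ ^ 2
        ≤ 9 / (8 * Real.pi)) :=
  Vale.Agent.Lib.P226.cells_main k A hA hd

end Vale.Agent.Results.P226.SmallCells
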