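import Mathlib
import Vale.Agent.Lib.P226.HalfSpace

namespace Vale.Agent.Results.P226.UniversalBound

open MeasureTheory ProbabilityTheory

/-- Universal bounds in the Gaussian propeller problem.
Let `γ` be the standard Gaussian measure on `ℝ^d` and let `A_1, …, A_k` be pairwise disjoint
measurable subsets of `ℝ^d` (for instance the cells of a measurable partition), with Gaussian
first moments `z(A_i) = ∫_{A_i} x dγ(x)`.  Then
* `‖z(A_i)‖² ≤ (81/200) γ(A_i)` for every cell;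
* `∑ ‖z(A_i)‖² ≤ 81/200 = 0.405` (for all `d`, `k`; the conjectured value is `9/(8π) ≈ 0.3581`);
* if every cell has `γ(A_i) ≤ 1/7`, then `∑ ‖z(A_i)‖² ≤ 9/(8π)`;
* if some cell has `γ(A_i) ≥ 51/100`, then `∑ ‖z(A_i)‖² ≤ 9/(8π)`. -/
theorem result (d k : ℕ) (A : Fin k → Set (EuclideanSpace ℝ (Fin d)))
    (hA : ∀ i, MeasurableSet (A i))
    (hd : Pairwise (fun i j => Disjoint (A i) (A j))) :
    (∀ i, ‖∫ x in A i, x ∂(stdGaussian (EuclideanSpace ℝ (Fin d)))‖ ^ 2 ≤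
      81 / 200 * ((stdGaussian (EuclideanSpace ℝ (Fin d))) (A i)).toReal) ∧
    (∑ i, ‖∫ x in A i, x ∂(stdGaussian (EuclideanSpace ℝ (Fin d)))‖ ^ 2 ≤ 81 / 200) ∧
    ((∀ i, ((stdGaussian (EuclideanSpace ℝ (Fin d))) (A i)).toReal ≤ 1 / 7) →
      ∑ i, ‖∫ x in A i, x ∂(stdGaussian (EuclideanSpace ℝ (Fin d)))‖ ^ 2
        ≤ 9 / (8 * Real.pi)) ∧
    ((∃ i, 51 / 100 ≤ ((stdGaussian (EuclideanSpace ℝ (Fin d))) (A i)).toReal) →
      ∑ i, ‖∫ x in A i, x ∂(stdGaussian (EuclideanSpace ℝ (Fin d)))‖ ^ 2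
        ≤ 9 / (8 * Real.pi)) :=
  Vale.Agent.Lib.P226.universal_main k A hA hd

end Vale.Agent.Results.P226.UniversalBound
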